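import Vale.Agent.N052.CWFin

/-!
# P052: Borsuk's problem for bodies of constant width
-/

namespace Vale.Agent.Results.P052.A0ConstantWidth

open Vale.Agent.N052 Vale.Agent.N052.CW

/-- (1) Every compact set `X` of positive diameter lies in a convex body `C` of constant width
`diam X` whose singular points lie in `X`, which has all the symmetries of `X`, and
`b(C) = max (d + 1) b(X)`.
(2) The complex projective plane in `ℝ⁸` has `b = 9`.
(3) `b(d) ≤ k` is a uniform statement on finite sets. -/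
theorem result :
    (∀ d : ℕ, AllComplete d) ∧
    (IsCompact cp2 ∧ Metric.diam cp2 = √2 ∧ InEight cp2 ∧ bSet cp2 = 9) ∧
    ∀ d k : ℕ, 1 ≤ k → (bDim d ≤ k ↔ FiniteRatio d k) := by
  refine ⟨fun d X hX hpos => ?_,
    ⟨isCompact_cp2, diam_cp2, ⟨emb8, isometry_emb8, cp2_sub⟩, bSet_cp2⟩, fun d k hk => bDim_iff hk⟩
  obtain ⟨C, c1, c2, c3, c4, c5, c6⟩ := completion hX hpos
  rw [finrank_euclideanSpace_fin] at c6
  exact ⟨C, ⟨c1, c2, c3, c4, c5⟩, c6⟩

end Vale.Agent.Results.P052.A0ConstantWidth
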