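import Mathlib
import Vale.Agent.N052.Rot

/-!
# P052: the Borsuk numbers of the sets of rank-one projectors
-/

namespace Vale.Agent.Results.P052.A0ProjectorNumbers

open Vale.Agent.N052

/-- `proj n` is the set of the rank-one orthogonal projectors of `ℝⁿ` with the Frobenius metric.
(1) `proj n` is a compact set of diameter `√2` in a copy of `ℝᵈ`, `d = n (n + 1) / 2 - 1`.
(2) The Borsuk numbers for `n = 2, 3, 4, 5` are `3, 6, 11, 16`.
(3) The recursion `b (n + 1) ≥ b n + n + 1`; `proj n` needs more than `d + 1` sets exactly for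
`n ≥ 4`; the convex hull of `proj n` has the same Borsuk number. -/
theorem result :
    (∀ n : ℕ, 2 ≤ n → IsCompact (proj n) ∧ Metric.diam (proj n) = √2 ∧ proj n ⊆ symOne n ∧
      ∃ f : EuclideanSpace ℝ (Fin (n * (n + 1) / 2 - 1)) → EuclideanSpace ℝ (Fin n × Fin n),
        Isometry f ∧ Set.range f = symOne n ∧ IsCompact (f ⁻¹' proj n) ∧
          Metric.diam (f ⁻¹' proj n) = √2 ∧ bNum (f ⁻¹' proj n) = bNum (proj n)) ∧
    (bNum (proj 2) = 3 ∧ bNum (proj 3) = 6 ∧ bNum (proj 4) = 11 ∧ bNum (proj 5) = 16) ∧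
    ∀ n : ℕ, 2 ≤ n → bNum (proj n) + (n + 1) ≤ bNum (proj (n + 1)) ∧
      ((n * (n + 1) / 2 - 1) + 1 < bNum (proj n) ↔ 4 ≤ n) ∧
      bNum (convexHull ℝ (proj n)) = bNum (proj n) :=
  ⟨all_n, ⟨bNum_two, bNum_three, bNum_four, bNum_five⟩,
    fun n hn => ⟨bNum_step hn, counter_iff n hn, bNum_hull hn⟩⟩

end Vale.Agent.Results.P052.A0ProjectorNumbers
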